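import Mathlib

/-!
# P097: tables with smooth boundary
-/

namespace Vale.Agent.P097

open scoped ContDiff

/-- `h` is the support function of a planar convex body with smooth boundary of positive
curvature. -/
def SmoothTable (h : ℝ → ℝ) : Prop :=
  ContDiff ℝ ∞ h ∧ (∀ x, h (x + 2 * Real.pi) = h x) ∧ ∀ x, 0 < h x + deriv (deriv h) x

end Vale.Agent.P097
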